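import Vale.Agent.P176.Bridge

/-!
The finitistic dimension conjecture fails: over every field of characteristic zero there is a
finite-dimensional algebra with finitely generated modules of arbitrarily large finite
projective dimension.
-/

namespace Vale.Agent.Results.P176.FindimFalse

open CategoryTheory Vale.Agent.P176

/-- For every field of characteristic zero, some finite-dimensional algebra has infinite
finitistic dimension. -/
theorem result (k : Type) [Field k] [CharZero k] :
    ∃ (A : Type) (_ : Ring A) (_ : Algebra k A), FiniteDimensional k A ∧
      ∀ n : ℕ, ∃ M : ModuleCat.{0} A, Module.Finite A M ∧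
        (n : WithBot ℕ∞) < CategoryTheory.projectiveDimension M ∧
          CategoryTheory.projectiveDimension M < ⊤ := by
  obtain ⟨m, C, hC⟩ := exists_algebra_unbounded k
  exact ⟨Alg C, inferInstance, inferInstance, inferInstance, hC⟩

end Vale.Agent.Results.P176.FindimFalse
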